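import Mathlib

/-!
# P174: solvability of a system of equations is local in the coefficient subgroup

Let `K` be a subgroup of a group `G` (given by an injective homomorphism `j : K →* G`) and let `W`
be a system of equations in the unknowns `X` with coefficients in `K`, i.e. a set of elements of
the free product of `K` with the free group on `X`.  If the system is solvable over `K`, then the
same system, read over `G`, is solvable over `G`.
-/

namespace Vale.Agent.Results.P174.CoefficientLocal

open Monoid

/-- the two factors of the amalgam -/
abbrev Fam (G H : Type) : Bool → Type := fun b => Bool.rec H G b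

instance famGroup (G H : Type) [Group G] [Group H] : ∀ b, Group (Fam G H b)
  | true => inferInstanceAs (Group G)
  | false => inferInstanceAs (Group H)

/-- the two maps out of the amalgamated subgroup -/
def famHom {K G H : Type} [Group K] [Group G] [Group H] (j : K →* G) (f : K →* H) :
    ∀ b, K →* Fam G H b
  | true => j
  | false => f

theorem result {K G X : Type} [Group K] [Group G] (j : K →* G) (hj : Function.Injective j)
    (W : Set (Coprod K (FreeGroup X)))
    (hK : ∃ (H : Type) (_ : Group H) (f : K →* H) (h : X → H), Function.Injective f ∧
      ∀ w ∈ W, Coprod.lift f (FreeGroup.lift h) w = 1) :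
    ∃ (H' : Type) (_ : Group H') (g : G →* H') (h' : X → H'), Function.Injective g ∧
      ∀ w ∈ W, Coprod.lift g (FreeGroup.lift h')
        (Coprod.map j (MonoidHom.id (FreeGroup X)) w) = 1 := by
  obtain ⟨H, _, f, h, hf, hW⟩ := hK
  have hinj : ∀ b, Function.Injective (famHom j f b) := by
    intro b
    cases b
    · exact hf
    · exact hj
  let oG : G →* PushoutI (famHom j f) := PushoutI.of (φ := famHom j f) true
  let oH : H →* PushoutI (famHom j f) := PushoutI.of (φ := famHom j f) false
  refine ⟨PushoutI (famHom j f), inferInstance, oG, fun x => oH (h x),
    PushoutI.of_injective hinj true, ?_⟩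
  have key : (Coprod.lift oG (FreeGroup.lift fun x => oH (h x))).comp
      (Coprod.map j (MonoidHom.id (FreeGroup X))) =
      oH.comp (Coprod.lift f (FreeGroup.lift h)) := by
    apply Coprod.hom_ext
    · ext k
      have h1 : oG (j k) = PushoutI.base (famHom j f) k :=
        PushoutI.of_apply_eq_base (famHom j f) true k
      have h2 : oH (f k) = PushoutI.base (famHom j f) k :=
        PushoutI.of_apply_eq_base (famHom j f) false k
      simp [h1, h2]
    · ext x
      simp
  intro w hw
  have := DFunLike.congr_fun key w
  simp only [MonoidHom.comp_apply] at this
  rw [this, hW w hw, map_one]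

end Vale.Agent.Results.P174.CoefficientLocal
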